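import Mathlib

set_option autoImplicit false

/-!
P057, row CC: an integer linear form on a finitely generated group of functions is, up to a
nonzero integer factor, a combination of evaluations.
-/

namespace Vale.Agent.P057.H567

/-- Common denominator of finitely many rationals. -/
theorem exists_common_den {ι : Type} (s : Finset ι) (f : ι → ℚ) :
    ∃ N : ℤ, N ≠ 0 ∧ ∃ g : ι → ℤ, ∀ i ∈ s, (g i : ℚ) = (N : ℚ) * f i := by
  classical
  refine ⟨∏ i ∈ s, ((f i).den : ℤ), Finset.prod_ne_zero_iff.2 fun i _ => by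
    exact_mod_cast (f i).den_nz, fun i => (∏ j ∈ s.erase i, ((f j).den : ℤ)) * (f i).num,
    fun i hi => ?_⟩
  rw [← Finset.prod_erase_mul _ _ hi]
  push_cast
  have h : ((f i).den : ℚ) * f i = (f i).num := by
    rw [mul_comm]
    exact Rat.mul_den_eq_num (f i)
  rw [mul_assoc, h]

/-- ROW CC. -/
theorem coord_comb {X : Type} (V : Submodule ℤ (X → ℤ)) (hV : V.FG) (φ : V →ₗ[ℤ] ℤ) :
    ∃ (N : ℤ) (s : Finset X) (a : X → ℤ), N ≠ 0 ∧
      ∀ g : V, N * φ g = ∑ x ∈ s, a x * (g : X → ℤ) x := by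
  classical
  have : Module.Finite ℤ V := Module.Finite.iff_fg.2 hV
  obtain ⟨n, b⟩ : Σ n : ℕ, Module.Basis (Fin n) ℤ V := Module.basisOfFiniteTypeTorsionFree'
  have hcoe : ∀ (c : Fin n → ℤ) (x : X),
      (((∑ i, c i • b i : V) : X → ℤ) x) = ∑ i, c i * ((b i : V) : X → ℤ) x := by
    intro c x
    simp [Finset.sum_apply]
  have hphi : ∀ c : Fin n → ℤ, φ (∑ i, c i • b i) = ∑ i, c i * φ (b i) := by
    intro c
    rw [map_sum]
    exact Finset.sum_congr rfl fun i _ => by rw [map_zsmul, smul_eq_mul]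
  let r : X → (Fin n → ℚ) := fun x i => ((((b i : V) : X → ℤ) x : ℤ) : ℚ)
  have hspan : Submodule.span ℚ (Set.range r) = ⊤ := by
    by_contra hne
    obtain ⟨f, hf0, hf⟩ := Submodule.exists_le_ker_of_lt_top _ (lt_top_iff_ne_top.2 hne)
    let c : Fin n → ℚ := fun i => f (fun j => if i = j then 1 else 0)
    have hfc : ∀ v : Fin n → ℚ, f v = ∑ i, v i * c i := by
      intro v
      rw [LinearMap.pi_apply_eq_sum_univ f v]
      rfl
    have hr : ∀ x, ∑ i, r x i * c i = 0 := by
      intro x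
      rw [← hfc]
      exact hf (Submodule.subset_span ⟨x, rfl⟩)
    obtain ⟨N, hN, c', hc'⟩ := exists_common_den Finset.univ c
    have hsum : ∑ i, c' i • b i = 0 := by
      apply Subtype.ext
      funext x
      rw [hcoe c' x]
      have h2 : ((∑ i, c' i * ((b i : V) : X → ℤ) x : ℤ) : ℚ) = 0 := by
        push_cast
        have h3 : ∀ i ∈ Finset.univ, (c' i : ℚ) * (((b i : V) : X → ℤ) x : ℚ) =
            (N : ℚ) * (r x i * c i) := by
          intro i hi
          rw [hc' i hi]
          simp only [r]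
          ring
        rw [Finset.sum_congr rfl h3, ← Finset.mul_sum, hr x, mul_zero]
      exact_mod_cast h2
    have hc0 : ∀ i, c' i = 0 := Fintype.linearIndependent_iff.1 b.linearIndependent c' hsum
    apply hf0
    refine LinearMap.ext fun v => ?_
    have h4 : ∀ i, c i = 0 := by
      intro i
      have h5 := hc' i (Finset.mem_univ i)
      rw [hc0 i] at h5
      have hN' : (N : ℚ) ≠ 0 := by exact_mod_cast hN
      have h6 : (N : ℚ) * c i = 0 := by rw [← h5]; simp
      exact (mul_eq_zero.1 h6).resolve_left hN'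
    rw [hfc]
    simp [h4]
  have hφ : (fun i => ((φ (b i) : ℤ) : ℚ)) ∈ Submodule.span ℚ (Set.range r) := by
    rw [hspan]; trivial
  rw [Finsupp.mem_span_range_iff_exists_finsupp] at hφ
  obtain ⟨q, hq⟩ := hφ
  obtain ⟨N, hN, a, ha⟩ := exists_common_den q.support q
  refine ⟨N, q.support, a, hN, fun g => ?_⟩
  have hb : ∀ i, N * φ (b i) = ∑ x ∈ q.support, a x * ((b i : V) : X → ℤ) x := by
    intro i
    have h1 := congrFun hq i
    rw [Finsupp.sum, Finset.sum_apply] at h1
    have h2 : ((N * φ (b i) : ℤ) : ℚ) =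
        ((∑ x ∈ q.support, a x * ((b i : V) : X → ℤ) x : ℤ) : ℚ) := by
      push_cast
      rw [← h1, Finset.mul_sum]
      refine Finset.sum_congr rfl fun x hx => ?_
      rw [ha x hx]
      simp only [r, Pi.smul_apply, smul_eq_mul]
      ring
    exact_mod_cast h2
  have hg : g = ∑ i, b.repr g i • b i := (b.sum_repr g).symm
  have h3 : ∀ x, (g : X → ℤ) x = ∑ i, b.repr g i * ((b i : V) : X → ℤ) x := by
    intro x
    conv_lhs => rw [hg]
    exact hcoe _ x
  have h4 : φ g = ∑ i, b.repr g i * φ (b i) := by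
    conv_lhs => rw [hg]
    exact hphi _
  rw [h4, Finset.mul_sum]
  calc ∑ i, N * (b.repr g i * φ (b i)) = ∑ i, b.repr g i * (N * φ (b i)) :=
        Finset.sum_congr rfl fun i _ => by ring
    _ = ∑ i, b.repr g i * ∑ x ∈ q.support, a x * ((b i : V) : X → ℤ) x :=
        Finset.sum_congr rfl fun i _ => by rw [hb i]
    _ = ∑ i, ∑ x ∈ q.support, a x * (b.repr g i * ((b i : V) : X → ℤ) x) :=
        Finset.sum_congr rfl fun i _ => by
          rw [Finset.mul_sum]
          exact Finset.sum_congr rfl fun x _ => by ring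
    _ = ∑ x ∈ q.support, ∑ i, a x * (b.repr g i * ((b i : V) : X → ℤ) x) := Finset.sum_comm
    _ = ∑ x ∈ q.support, a x * (g : X → ℤ) x :=
        Finset.sum_congr rfl fun x _ => by rw [h3 x, Finset.mul_sum]

end Vale.Agent.P057.H567
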