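import Vale.Agent.P057.R3.H380.Defs

/-!
# Minimal rank words of a finite automaton with commutative outputs
-/

open Nat

namespace Vale.Agent.P057.H567

open Vale.Agent.P057.H380

variable {Q B : Type} [AddCommMonoid B]

/-- The action of a word on the states. -/
def act (δ : Q → ℕ → Q × B) (w : List ℕ) (q : Q) : Q := (run δ q w).1

/-- The output of a word read from a state. -/
def out (δ : Q → ℕ → Q × B) (w : List ℕ) (q : Q) : B := (run δ q w).2

theorem run_append (δ : Q → ℕ → Q × B) (w₁ w₂ : List ℕ) (q : Q) :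
    run δ q (w₁ ++ w₂) = ((run δ (run δ q w₁).1 w₂).1,
      (run δ q w₁).2 + (run δ (run δ q w₁).1 w₂).2) := by
  induction w₁ generalizing q with
  | nil => simp [run]
  | cons d w ih => simp [run, ih, add_assoc]

theorem act_append (δ : Q → ℕ → Q × B) (w₁ w₂ : List ℕ) (q : Q) :
    act δ (w₁ ++ w₂) q = act δ w₂ (act δ w₁ q) := by
  simp [act, run_append]

theorem out_append (δ : Q → ℕ → Q × B) (w₁ w₂ : List ℕ) (q : Q) :
    out δ (w₁ ++ w₂) q = out δ w₁ q + out δ w₂ (act δ w₁ q) := by
  simp [act, out, run_append]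

theorem act_nil (δ : Q → ℕ → Q × B) (q : Q) : act δ [] q = q := by simp [act, run]

theorem act_pow (δ : Q → ℕ → Q × B) (w : List ℕ) (n : ℕ) (q : Q) :
    act δ (List.replicate n w).flatten q = (act δ w)^[n] q := by
  induction n generalizing q with
  | zero => simp [act_nil]
  | succ n ih => rw [List.replicate_succ, List.flatten_cons, act_append, ih,
      Function.iterate_succ_apply]

theorem Dig.append {b : ℕ} {u v : List ℕ} (hu : Dig b u) (hv : Dig b v) : Dig b (u ++ v) := by
  intro d hd
  rcases List.mem_append.1 hd with h | h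
  · exact hu d h
  · exact hv d h

/-- A map which permutes a subset `R` of a finite type has its `(card!) t`-th iterate equal to the
identity on `R`. -/
theorem iterate_fix [Finite Q] (F : Q → Q) (R : Set Q) (hm : Set.MapsTo F R R)
    (hs : Set.SurjOn F R R) (t : ℕ) (x : Q) (hx : x ∈ R) : F^[(Nat.card Q)! * t] x = x := by
  classical
  let σ : R → R := hm.restrict F R R
  have hsur : Function.Surjective σ := by
    intro y
    obtain ⟨z, hz, hzy⟩ := hs y.2
    exact ⟨⟨z, hz⟩, Subtype.ext hzy⟩
  have hbij : Function.Bijective σ := ⟨Finite.injective_iff_surjective.2 hsur, hsur⟩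
  let π : Equiv.Perm R := Equiv.ofBijective σ hbij
  have hcard : Nat.card (Equiv.Perm R) ∣ (Nat.card Q)! := by
    rw [Nat.card_perm]
    exact Nat.factorial_dvd_factorial (Finite.card_subtype_le _)
  have hpow : π ^ ((Nat.card Q)! * t) = 1 := by
    obtain ⟨c, hc⟩ := hcard
    rw [hc, mul_assoc, pow_mul, pow_card_eq_one', one_pow]
  have hit : ∀ n : ℕ, ∀ y : R, ((π ^ n) y : Q) = F^[n] y := by
    intro n
    induction n with
    | zero => intro y; simp
    | succ n ih =>
      intro y
      rw [pow_succ, Equiv.Perm.mul_apply, ih, Function.iterate_succ_apply]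
      rfl
  have := hit ((Nat.card Q)! * t) ⟨x, hx⟩
  rw [hpow] at this
  exact this.symm

theorem aut_comm [Finite Q] (δ : Q → ℕ → Q × B) (b : ℕ) :
    ∃ e : List ℕ, Dig b e ∧ ∀ y u v : List ℕ, Dig b y → Dig b u → Dig b v → ∀ t : ℕ, 0 < t →
      ∀ q : Q, run δ q (pw (e ++ y) ((Nat.card Q)! * t) u ++ pw (e ++ y) ((Nat.card Q)! * t) v) =
        run δ q (pw (e ++ y) ((Nat.card Q)! * t) v ++ pw (e ++ y) ((Nat.card Q)! * t) u) := by
  classical
  have hex : ∃ n, ∃ w, Dig b w ∧ (Set.range (act δ w)).ncard = n :=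
    ⟨_, [], by simp [Dig], rfl⟩
  obtain ⟨e, he, hen⟩ := Nat.find_spec hex
  have hmin : ∀ w, Dig b w → (Set.range (act δ e)).ncard ≤ (Set.range (act δ w)).ncard := by
    intro w hw
    rw [hen]
    exact Nat.find_min' hex ⟨w, hw, rfl⟩
  refine ⟨e, he, ?_⟩
  intro y u v hy hu hv t ht q
  set E : List ℕ := e ++ y with hE
  have hDE : Dig b E := Dig.append he hy
  set R : Set Q := Set.range (act δ E) with hR
  have hRcard : R.ncard ≤ (Set.range (act δ e)).ncard := by
    have h1 : R = act δ y '' Set.range (act δ e) := by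
      ext x
      constructor
      · rintro ⟨z, rfl⟩
        exact ⟨act δ e z, ⟨z, rfl⟩, by rw [hE, act_append]⟩
      · rintro ⟨_, ⟨z, rfl⟩, rfl⟩
        exact ⟨z, by rw [hE, act_append]⟩
    rw [h1]
    exact Set.ncard_image_le (Set.toFinite _)
  -- `act (w ++ E)` maps `R` onto `R`
  have hon : ∀ w, Dig b w → Set.SurjOn (act δ (w ++ E)) R R := by
    intro w hw x hx
    have h2 : Set.range (act δ (E ++ (w ++ E))) = R := by
      refine Set.eq_of_subset_of_ncard_le ?_ ?_ (Set.toFinite _)
      · rintro _ ⟨z, rfl⟩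
        rw [act_append, act_append]
        exact ⟨_, rfl⟩
      · exact hRcard.trans (hmin _ (Dig.append hDE (Dig.append hw hDE)))
    rw [← h2] at hx
    obtain ⟨z, rfl⟩ := hx
    exact ⟨act δ E z, ⟨z, rfl⟩, by rw [← act_append]⟩
  have hto : ∀ w, ∀ x, act δ (w ++ E) x ∈ R := by
    intro w x
    rw [act_append]
    exact ⟨_, rfl⟩
  have hinj : ∀ w, Dig b w → Set.InjOn (act δ (w ++ E)) R := by
    intro w hw
    let σ : R → R := fun x => ⟨act δ (w ++ E) x, hto w x⟩
    have hsur : Function.Surjective σ := by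
      intro y
      obtain ⟨z, hz, hzy⟩ := hon w hw y.2
      exact ⟨⟨z, hz⟩, Subtype.ext hzy⟩
    have hi : Function.Injective σ := Finite.injective_iff_surjective.2 hsur
    intro x hx y hy hxy
    have := @hi ⟨x, hx⟩ ⟨y, hy⟩ (Subtype.ext hxy)
    exact congrArg Subtype.val this
  have hnil : Dig b [] := by simp [Dig]
  have hE_R : ∀ x, act δ E x ∈ R := fun x => ⟨x, rfl⟩
  have hEinj : Set.InjOn (act δ E) R := by simpa using hinj [] hnil
  have hEsur : Set.SurjOn (act δ E) R R := by simpa using hon [] hnil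
  -- the exponent is a successor
  obtain ⟨N', hN'⟩ : ∃ N', (Nat.card Q)! * t = N' + 1 :=
    ⟨(Nat.card Q)! * t - 1, (Nat.succ_pred_eq_of_pos
      (Nat.mul_pos (Nat.factorial_pos _) ht)).symm⟩
  have hP : ∀ w, Dig b w → ∀ x, act δ (pw E ((Nat.card Q)! * t) w) x ∈ R ∧
      act δ E (act δ (pw E ((Nat.card Q)! * t) w) x) = act δ E x := by
    intro w hw x
    have hF : ∀ z, act δ (E ++ w ++ E) z = act δ (w ++ E) (act δ E z) := by
      intro z
      rw [List.append_assoc, act_append]
    have hfix : ∀ z ∈ R, (act δ (E ++ w ++ E))^[(Nat.card Q)! * t] z = z := by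
      intro z hz
      apply iterate_fix _ R _ _ t z hz
      · intro z _
        rw [hF]
        exact hto _ _
      · intro z hz
        obtain ⟨z₁, hz₁, rfl⟩ := hon w hw hz
        obtain ⟨z₂, hz₂, rfl⟩ := hEsur hz₁
        exact ⟨z₂, hz₂, hF z₂⟩
    rw [pw, act_pow]
    have hmem : (act δ (E ++ w ++ E))^[(Nat.card Q)! * t] x ∈ R := by
      rw [hN', Function.iterate_succ_apply', hF]
      exact hto _ _
    refine ⟨hmem, ?_⟩
    apply hinj w hw (hE_R _) (hE_R _)
    rw [← hF, ← hF, ← Function.iterate_succ_apply' (act δ (E ++ w ++ E)),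
      Function.iterate_succ_apply]
    apply hfix
    rw [hF]
    exact hto _ _
  -- two words act in the same way
  have hsame : ∀ w w', Dig b w → Dig b w' → ∀ x x', act δ E x = act δ E x' →
      act δ (pw E ((Nat.card Q)! * t) w) x = act δ (pw E ((Nat.card Q)! * t) w') x' := by
    intro w w' hw hw' x x' hxx
    apply hEinj (hP w hw x).1 (hP w' hw' x').1
    rw [(hP w hw x).2, (hP w' hw' x').2, hxx]
  -- outputs
  have hout : ∀ w x, out δ (pw E ((Nat.card Q)! * t) w) x = out δ E x +
      out δ (w ++ E ++ (List.replicate N' (E ++ w ++ E)).flatten) (act δ E x) := by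
    intro w x
    rw [pw, hN', List.replicate_succ, List.flatten_cons, ← out_append]
    simp [List.append_assoc]
  have hfin : ∀ w w', Dig b w → Dig b w' →
      out δ (pw E ((Nat.card Q)! * t) w ++ pw E ((Nat.card Q)! * t) w') q =
        out δ E q + out δ (w ++ E ++ (List.replicate N' (E ++ w ++ E)).flatten) (act δ E q) +
        (out δ E (act δ (pw E ((Nat.card Q)! * t) w) q) +
          out δ (w' ++ E ++ (List.replicate N' (E ++ w' ++ E)).flatten) (act δ E q)) := by
    intro w w' hw hw'
    rw [out_append, hout w q, hout w' (act δ (pw E ((Nat.card Q)! * t) w) q), (hP w hw q).2]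
  have hst : act δ (pw E ((Nat.card Q)! * t) u ++ pw E ((Nat.card Q)! * t) v) q =
      act δ (pw E ((Nat.card Q)! * t) v ++ pw E ((Nat.card Q)! * t) u) q := by
    rw [act_append, act_append]
    apply hsame _ _ hv hu
    rw [(hP u hu q).2, (hP v hv q).2]
  have hot : out δ (pw E ((Nat.card Q)! * t) u ++ pw E ((Nat.card Q)! * t) v) q =
      out δ (pw E ((Nat.card Q)! * t) v ++ pw E ((Nat.card Q)! * t) u) q := by
    rw [hfin u v hu hv, hfin v u hv hu, hsame u v hu hv q q rfl]
    abel
  exact Prod.ext hst hot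

end Vale.Agent.P057.H567
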