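import Vale.Agent.P057.R3.H475.Defs
import Mathlib

set_option autoImplicit false

/-!
P057, row PAIR: many words of the same length act equally.
-/

namespace Vale.Agent.P057.H567

open Vale.Agent.P057.H475

/-- A polynomial is below an exponential somewhere. -/
theorem exists_poly_lt_pow {b : ℕ} (hb : 2 ≤ b) (C k : ℕ) :
    ∃ m : ℕ, C * (m + 1) ^ k < b ^ m := by
  have hb' : (1 : ℝ) < b := by exact_mod_cast (by omega : 1 < b)
  have ht := tendsto_pow_const_div_const_pow_of_one_lt k hb'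
  have hpos : (0 : ℝ) < 1 / ((C + 1) * b) := by positivity
  have hev := (ht.eventually (gt_mem_nhds hpos)).and (Filter.eventually_ge_atTop 1)
  obtain ⟨n, hn, hn1⟩ := hev.exists
  obtain ⟨m, rfl⟩ : ∃ m, n = m + 1 := ⟨n - 1, by omega⟩
  refine ⟨m, ?_⟩
  have hbm : (0 : ℝ) < (b : ℝ) ^ (m + 1) := by positivity
  have hcb : (0 : ℝ) < ((C + 1) * b : ℝ) := by positivity
  rw [div_lt_div_iff₀ hbm hcb] at hn
  have h1 : (((m + 1 : ℕ) : ℝ)) ^ k * ((C + 1) * b) < 1 * (b : ℝ) ^ (m + 1) := hn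
  have h2 : ((m + 1) ^ k * ((C + 1) * b) : ℕ) < b ^ (m + 1) := by
    have : (((m + 1) ^ k * ((C + 1) * b) : ℕ) : ℝ) < ((b ^ (m + 1) : ℕ) : ℝ) := by
      push_cast
      push_cast at h1
      linarith
    exact_mod_cast this
  have h3 : ((m + 1) ^ k * (C + 1)) * b < b ^ m * b := by
    rw [← pow_succ]
    calc ((m + 1) ^ k * (C + 1)) * b = (m + 1) ^ k * ((C + 1) * b) := by ring
      _ < b ^ (m + 1) := h2
  have h4 : (m + 1) ^ k * (C + 1) < b ^ m := lt_of_mul_lt_mul_right h3 (Nat.zero_le b)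
  calc C * (m + 1) ^ k ≤ (m + 1) ^ k * (C + 1) := by
        rw [mul_comm]
        exact Nat.mul_le_mul_left _ (Nat.le_succ C)
    _ < b ^ m := h4

/-- The output of a run is a combination of the outputs of single steps. -/
theorem arun_counts {Q B : Type} [AddCommMonoid B] {b : ℕ} (hb : 2 ≤ b)
    {𝒟 : Set (Q → ℕ → Q × B)} [Fintype (𝒟 × Q × Fin b)] (m : ℕ) :
    ∀ (δ : ℕ → Q → ℕ → Q × B), (∀ i, δ i ∈ 𝒟) → ∀ (q : Q) (n : ℕ),
      ∃ c : 𝒟 × Q × Fin b → ℕ, (∀ i, c i ≤ m) ∧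
        (arun b δ m q n).2 = ∑ i, c i • ((i.1 : Q → ℕ → Q × B) i.2.1 (i.2.2 : ℕ)).2 := by
  classical
  induction m with
  | zero =>
    intro δ hδ q n
    exact ⟨fun _ => 0, fun _ => le_refl _, by simp [arun]⟩
  | succ m ih =>
    intro δ hδ q n
    obtain ⟨c, hc, hs⟩ := ih (fun i => δ (i + 1)) (fun i => hδ (i + 1)) (δ 0 q (n % b)).1 (n / b)
    have hlt : n % b < b := Nat.mod_lt _ (by omega)
    let i0 : 𝒟 × Q × Fin b := (⟨δ 0, hδ 0⟩, q, ⟨n % b, hlt⟩)
    refine ⟨fun i => (if i = i0 then 1 else 0) + c i, ?_, ?_⟩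
    · intro i
      have := hc i
      by_cases h : i = i0
      · simp only [h, if_true]
        have := hc i0
        omega
      · simp only [h, if_false]
        omega
    · simp only [add_smul, Finset.sum_add_distrib, ite_smul, one_smul, zero_smul,
        Finset.sum_ite_eq', Finset.mem_univ, if_true]
      rw [← hs]
      rfl

/-- ROW PAIR (pigeonhole: polynomially many behaviours, `b ^ m` words). -/
theorem pair {Q B : Type} [Finite Q] [AddCommMonoid B] {b : ℕ} (hb : 2 ≤ b)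
    {𝒟 : Set (Q → ℕ → Q × B)} (h𝒟 : 𝒟.Finite) :
    ∃ m : ℕ, ∀ δ : ℕ → Q → ℕ → Q × B, (∀ i, δ i ∈ 𝒟) →
      ∃ α β : ℕ, α < β ∧ β < b ^ m ∧ ∀ q, arun b δ m q β = arun b δ m q α := by
  classical
  have : Fintype Q := Fintype.ofFinite Q
  have : Fintype 𝒟 := h𝒟.fintype
  obtain ⟨m, hm⟩ := exists_poly_lt_pow hb (Fintype.card Q ^ Fintype.card Q)
    (Fintype.card (𝒟 × Q × Fin b) * Fintype.card Q)
  refine ⟨m, fun δ hδ => ?_⟩
  have hcount : ∀ (q : Q) (n : ℕ), ∃ c : 𝒟 × Q × Fin b → Fin (m + 1),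
      (arun b δ m q n).2 = ∑ i, (c i : ℕ) • ((i.1 : Q → ℕ → Q × B) i.2.1 (i.2.2 : ℕ)).2 := by
    intro q n
    obtain ⟨c, hc, hs⟩ := arun_counts hb m δ hδ q n
    exact ⟨fun i => ⟨c i, Nat.lt_succ_of_le (hc i)⟩, hs⟩
  choose c hc using hcount
  let f : Fin (b ^ m) → (Q → Q × (𝒟 × Q × Fin b → Fin (m + 1))) :=
    fun n q => ((arun b δ m q n).1, c q n)
  have hcard : Fintype.card (Q → Q × (𝒟 × Q × Fin b → Fin (m + 1))) <
      Fintype.card (Fin (b ^ m)) := by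
    rw [Fintype.card_fun, Fintype.card_prod, Fintype.card_fun, Fintype.card_fin,
      Fintype.card_fin, mul_pow, ← pow_mul]
    exact hm
  obtain ⟨x, y, hxy, hf⟩ := Fintype.exists_ne_map_eq_of_card_lt f hcard
  have key : ∀ q, arun b δ m q x = arun b δ m q y := by
    intro q
    have h : ((arun b δ m q (x : ℕ)).1, c q (x : ℕ)) = ((arun b δ m q (y : ℕ)).1, c q (y : ℕ)) :=
      congrFun hf q
    obtain ⟨h1, h2⟩ := Prod.mk.inj h
    refine Prod.ext h1 ?_
    rw [hc q x, hc q y, h2]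
  rcases lt_or_gt_of_ne hxy with h | h
  · exact ⟨x, y, h, y.2, fun q => (key q).symm⟩
  · exact ⟨y, x, h, x.2, key⟩

end Vale.Agent.P057.H567
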