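import Vale.Agent.P057.R3.H380.Part

set_option autoImplicit false

/-!
P057, row PARTF: the step inequality for a family of sets closed under fixing low digits.
-/

namespace Vale.Agent.P057.H567

open Finset Vale.Agent.P057.H380

/-- ROW PARTF: `part` of helper380 for a family closed under `br`. -/
theorem part_family {B K : ℕ} (hK : 2 ≤ K) (P : Set ℕ → Prop)
    (hbr : ∀ A, P A → ∀ d < B, P (br B d A))
    (hAP : ∀ A, P A → ∃ v D : ℕ, 0 < v ∧ 0 < D ∧ (∀ j < K, v + j * D < B) ∧
      ∀ j < K, br B (v + j * D) A = br B v A) (T : ℕ) :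
    ∀ A : Set ℕ, P A →
      ∀ k ρ : ℕ, (∀ F : Finset ℕ, F ⊆ Finset.range K → ¬ HasAP k (F : Set ℕ) → F.card ≤ ρ) →
      ∀ A' : Set ℕ, A' ⊆ A → ¬ HasAP k A' → ∀ N : ℕ, N ≤ B ^ T →
        K * cnt A' N ≤ ρ * cnt A N + 2 * K ^ 2 * (B - 1) ^ T := by
  induction T with
  | zero =>
    intro A _ k ρ _ A' _ _ N hN
    have h1 : cnt A' N ≤ 1 := le_trans (cnt_le A' N) (by simpa using hN)
    have h2 : K * cnt A' N ≤ K * 1 := Nat.mul_le_mul_left _ h1
    have h3 : K ≤ 2 * K ^ 2 * (B - 1) ^ 0 := by
      rw [pow_zero, mul_one]; nlinarith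
    omega
  | succ T ih =>
    intro A hA k ρ hρ A' hsub hno N hN
    classical
    obtain ⟨v, D, hv, hD, hV, hAeq⟩ := hAP A hA
    have hvB : v < B := by simpa using hV 0 (by omega)
    have hB0 : 0 < B := by omega
    have hKB : K + 1 ≤ B := by
      have h1 := hV (K - 1) (by omega)
      have h2 : K - 1 ≤ (K - 1) * D := Nat.le_mul_of_pos_right _ hD
      omega
    set E := 2 * K ^ 2 * (B - 1) ^ T with hE
    set Nd : ℕ → ℕ := fun d => (N + B - 1 - d) / B with hNd
    have hNdle : ∀ d, Nd d ≤ B ^ T := by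
      intro d
      simp only [hNd]
      rw [← Nat.lt_add_one_iff, Nat.div_lt_iff_lt_mul hB0]
      have : (B ^ T + 1) * B = B ^ (T + 1) + B := by ring
      omega
    have hbrA : ∀ d < B, P (br B d A) := hbr A hA
    have hbrsub : ∀ d, br B d A' ⊆ br B d A := fun d y hy => hsub hy
    have hbrno : ∀ d, ¬ HasAP k (br B d A') := by
      rintro d ⟨a, s, hs, has⟩
      apply hno
      refine ⟨d + B * a, B * s, Nat.mul_pos hB0 hs, fun i hi => ?_⟩
      have h1 := has i hi
      simp only [br, Set.mem_setOf_eq] at h1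
      have e : d + B * a + i * (B * s) = d + B * (a + i * s) := by ring
      rw [e]; exact h1
    have hall : ∀ d ∈ range B, K * cnt (br B d A') (Nd d) ≤ ρ * cnt (br B d A) (Nd d) + E :=
      fun d hd => ih (br B d A) (hbrA d (mem_range.1 hd)) k ρ hρ (br B d A') (hbrsub d)
        (hbrno d) (Nd d) (hNdle d)
    set V : Finset ℕ := (range K).image (fun j => v + j * D) with hVdef
    have hinj : Function.Injective (fun j : ℕ => v + j * D) := by
      intro x y hxy
      have : x * D = y * D := by simpa using hxy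
      exact Nat.eq_of_mul_eq_mul_right hD this
    have hVcard : V.card = K := by
      rw [hVdef, Finset.card_image_of_injective _ hinj, card_range]
    have hVsub : V ⊆ range B := by
      intro d hd
      rw [hVdef, mem_image] at hd
      obtain ⟨j, hj, rfl⟩ := hd
      exact mem_range.2 (hV j (mem_range.1 hj))
    have hAiff : ∀ n j : ℕ, j < K → n % B = v → (n ∈ A ↔ n + j * D ∈ A) := by
      intro n j hj hn
      have e1 : v + B * (n / B) = n := by
        have := Nat.mod_add_div n B
        rwa [hn] at this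
      have h1 : (n / B ∈ br B (v + j * D) A) ↔ (n / B ∈ br B v A) := by rw [hAeq j hj]
      simp only [br, Set.mem_setOf_eq] at h1
      have e2 : v + j * D + B * (n / B) = n + j * D := by
        calc v + j * D + B * (n / B) = v + B * (n / B) + j * D := by ring
          _ = n + j * D := by rw [e1]
      rw [e1, e2] at h1
      exact h1.symm
    set M := Nd (v + (K - 1) * D) with hM
    have hle1 : ∀ j < K, M ≤ Nd (v + j * D) := by
      intro j hj
      simp only [hM, hNd]
      apply Nat.div_le_div_right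
      have : j * D ≤ (K - 1) * D := Nat.mul_le_mul_right _ (by omega)
      omega
    have hle2 : ∀ j < K, Nd (v + j * D) ≤ M + 1 := by
      intro j hj
      simp only [hM, hNd]
      rw [← Nat.add_div_right _ hB0]
      apply Nat.div_le_div_right
      have := hV (K - 1) (by omega)
      omega
    have hVsum : K * ∑ d ∈ V, cnt (br B d A') (Nd d) ≤
        ρ * ∑ d ∈ V, cnt (br B d A) (Nd d) + K ^ 2 := by
      rw [hVdef, Finset.sum_image fun x _ y _ h => hinj h,
        Finset.sum_image fun x _ y _ h => hinj h]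
      have h1 : ∑ j ∈ range K, cnt (br B (v + j * D) A') (Nd (v + j * D)) ≤
          ρ * cnt (br B v A) M + K := by
        calc ∑ j ∈ range K, cnt (br B (v + j * D) A') (Nd (v + j * D))
            ≤ ∑ j ∈ range K, (cnt (br B (v + j * D) A') M + 1) :=
              Finset.sum_le_sum fun j hj => cnt_le_add_one (hle2 j (mem_range.1 hj))
          _ = ∑ j ∈ range K, cnt (br B (v + j * D) A') M + K := by
              rw [Finset.sum_add_distrib]; simp
          _ ≤ ρ * cnt (br B v A) M + K := by
              apply Nat.add_le_add_right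
              exact vpart hD hvB hAiff hρ hsub hno M
      have h2 : K * cnt (br B v A) M ≤
          ∑ j ∈ range K, cnt (br B (v + j * D) A) (Nd (v + j * D)) := by
        calc K * cnt (br B v A) M = ∑ j ∈ range K, cnt (br B v A) M := by simp
          _ ≤ _ := Finset.sum_le_sum fun j hj => by
              rw [hAeq j (mem_range.1 hj)]
              exact cnt_mono (hle1 j (mem_range.1 hj))
      calc K * ∑ j ∈ range K, cnt (br B (v + j * D) A') (Nd (v + j * D))
          ≤ K * (ρ * cnt (br B v A) M + K) := Nat.mul_le_mul_left _ h1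
        _ = ρ * (K * cnt (br B v A) M) + K ^ 2 := by ring
        _ ≤ _ := Nat.add_le_add_right (Nat.mul_le_mul_left _ h2) _
    have hRsum : K * ∑ d ∈ range B \ V, cnt (br B d A') (Nd d) ≤
        ρ * ∑ d ∈ range B \ V, cnt (br B d A) (Nd d) + (B - K) * E := by
      rw [Finset.mul_sum, Finset.mul_sum]
      calc ∑ d ∈ range B \ V, K * cnt (br B d A') (Nd d)
          ≤ ∑ d ∈ range B \ V, (ρ * cnt (br B d A) (Nd d) + E) :=
            Finset.sum_le_sum fun d hd => hall d (Finset.mem_sdiff.1 hd).1
        _ = ∑ d ∈ range B \ V, ρ * cnt (br B d A) (Nd d) + (B - K) * E := by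
            rw [Finset.sum_add_distrib, Finset.sum_const, Finset.card_sdiff_of_subset hVsub,
              hVcard, card_range, smul_eq_mul]
    have hs1 := Finset.sum_sdiff (f := fun d => cnt (br B d A') (Nd d)) hVsub
    have hs2 := Finset.sum_sdiff (f := fun d => cnt (br B d A) (Nd d)) hVsub
    rw [cnt_split hB0 A' N, cnt_split hB0 A N]
    change K * ∑ d ∈ range B, cnt (br B d A') (Nd d) ≤
      ρ * ∑ d ∈ range B, cnt (br B d A) (Nd d) + 2 * K ^ 2 * (B - 1) ^ (T + 1)
    rw [← hs1, ← hs2, mul_add, mul_add]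
    have hE1 : K ^ 2 ≤ E := by
      have h5 : 1 ≤ (B - 1) ^ T := Nat.one_le_pow _ _ (by omega)
      rw [hE]; nlinarith [Nat.zero_le (K ^ 2)]
    have hE2 : (B - K) * E + K ^ 2 ≤ 2 * K ^ 2 * (B - 1) ^ (T + 1) := by
      calc (B - K) * E + K ^ 2 ≤ (B - K) * E + E := by omega
        _ = (B - K + 1) * E := by ring
        _ ≤ (B - 1) * E := Nat.mul_le_mul_right _ (by omega)
        _ = 2 * K ^ 2 * (B - 1) ^ (T + 1) := by rw [hE]; ring
    omega

end Vale.Agent.P057.H567
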