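import Mathlib

/-!
# Abel summation with weights `1 / n`
-/

namespace Vale.Agent.P057.H567

theorem abel_id (z : ℕ → ℝ) (N : ℕ) :
    ∑ n ∈ Finset.Icc 1 N, z n / n =
      ∑ n ∈ Finset.Icc 1 N, (∑ k ∈ Finset.Icc 1 n, z k) * (1 / (n : ℝ) - 1 / ((n : ℝ) + 1)) +
        (∑ k ∈ Finset.Icc 1 N, z k) / ((N : ℝ) + 1) := by
  induction N with
  | zero => simp
  | succ N ih =>
    rw [Finset.sum_Icc_succ_top (by omega), ih,
      Finset.sum_Icc_succ_top (by omega : 1 ≤ N + 1)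
        (fun n : ℕ => (∑ k ∈ Finset.Icc 1 n, z k) * (1 / (n : ℝ) - 1 / ((n : ℝ) + 1)))]
    have h1 : ∑ k ∈ Finset.Icc 1 (N + 1), z k = ∑ k ∈ Finset.Icc 1 N, z k + z (N + 1) :=
      Finset.sum_Icc_succ_top (by omega) _
    rw [h1]
    have h2 : (N : ℝ) + 1 ≠ 0 := by positivity
    have h3 : (N : ℝ) + 1 + 1 ≠ 0 := by positivity
    push_cast
    field_simp
    ring

theorem abel {θ : ℝ} (hθ : θ < 1) : ∃ C' : ℝ, 0 ≤ C' ∧ ∀ (x y : ℕ → ℝ) (C : ℝ), 0 ≤ C →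
    (∀ N : ℕ, 1 ≤ N → ∑ n ∈ Finset.Icc 1 N, x n ≤ ∑ n ∈ Finset.Icc 1 N, y n + C * (N : ℝ) ^ θ) →
    ∀ N : ℕ, ∑ n ∈ Finset.Icc 1 N, x n / n ≤ ∑ n ∈ Finset.Icc 1 N, y n / n + C * C' := by
  have hsum : Summable (fun n : ℕ => (n : ℝ) ^ (θ - 2)) :=
    Real.summable_nat_rpow.2 (by linarith)
  have hnn : ∀ n : ℕ, 0 ≤ (n : ℝ) ^ (θ - 2) := fun n => Real.rpow_nonneg (Nat.cast_nonneg n) _
  refine ⟨∑' n : ℕ, (n : ℝ) ^ (θ - 2) + 1, add_nonneg (tsum_nonneg hnn) zero_le_one, ?_⟩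
  intro x y C hC h N
  have hZ : ∀ n : ℕ, 1 ≤ n → ∑ k ∈ Finset.Icc 1 n, (x k - y k) ≤ C * (n : ℝ) ^ θ := by
    intro n hn
    rw [Finset.sum_sub_distrib]
    linarith [h n hn]
  have h1 : ∑ n ∈ Finset.Icc 1 N, x n / n - ∑ n ∈ Finset.Icc 1 N, y n / n =
      ∑ n ∈ Finset.Icc 1 N, (x n - y n) / n := by
    rw [← Finset.sum_sub_distrib]
    exact Finset.sum_congr rfl fun n _ => by ring
  have h2 := abel_id (fun n => x n - y n) N
  have h3 : ∑ n ∈ Finset.Icc 1 N, (∑ k ∈ Finset.Icc 1 n, (x k - y k)) *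
      (1 / (n : ℝ) - 1 / ((n : ℝ) + 1)) ≤ C * ∑' n : ℕ, (n : ℝ) ^ (θ - 2) := by
    calc _ ≤ ∑ n ∈ Finset.Icc 1 N, C * (n : ℝ) ^ (θ - 2) := by
          apply Finset.sum_le_sum
          intro n hn
          have hn1 : 1 ≤ n := (Finset.mem_Icc.1 hn).1
          have hn0 : (0 : ℝ) < n := by exact_mod_cast hn1
          have hd : (0 : ℝ) ≤ 1 / (n : ℝ) - 1 / ((n : ℝ) + 1) := by
            rw [sub_nonneg]
            exact one_div_le_one_div_of_le hn0 (by linarith)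
          have hd2 : 1 / (n : ℝ) - 1 / ((n : ℝ) + 1) ≤ 1 / (n : ℝ) ^ 2 := by
            rw [div_sub_div _ _ hn0.ne' (by positivity), div_le_div_iff₀ (by positivity)
              (by positivity)]
            nlinarith
          calc _ ≤ (C * (n : ℝ) ^ θ) * (1 / (n : ℝ) - 1 / ((n : ℝ) + 1)) :=
                mul_le_mul_of_nonneg_right (hZ n hn1) hd
            _ ≤ (C * (n : ℝ) ^ θ) * (1 / (n : ℝ) ^ 2) :=
                mul_le_mul_of_nonneg_left hd2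
                  (mul_nonneg hC (Real.rpow_nonneg hn0.le _))
            _ = C * (n : ℝ) ^ (θ - 2) := by
                rw [Real.rpow_sub hn0, Real.rpow_two]
                ring
      _ = C * ∑ n ∈ Finset.Icc 1 N, (n : ℝ) ^ (θ - 2) := by rw [Finset.mul_sum]
      _ ≤ C * ∑' n : ℕ, (n : ℝ) ^ (θ - 2) :=
          mul_le_mul_of_nonneg_left (hsum.sum_le_tsum _ fun n _ => hnn n) hC
  have h4 : (∑ k ∈ Finset.Icc 1 N, (x k - y k)) / ((N : ℝ) + 1) ≤ C * 1 := by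
    rcases Nat.eq_zero_or_pos N with rfl | hN
    · simpa using hC
    · have hN0 : (1 : ℝ) ≤ N := by exact_mod_cast hN
      rw [div_le_iff₀ (by positivity)]
      have h5 : (N : ℝ) ^ θ ≤ N := by
        calc (N : ℝ) ^ θ ≤ (N : ℝ) ^ (1 : ℝ) := Real.rpow_le_rpow_of_exponent_le hN0 hθ.le
          _ = N := Real.rpow_one _
      calc _ ≤ C * (N : ℝ) ^ θ := hZ N hN
        _ ≤ C * (N + 1) := mul_le_mul_of_nonneg_left (by linarith) hC
        _ = C * 1 * (N + 1) := by ring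
  have h6 : ∑ n ∈ Finset.Icc 1 N, (x n - y n) / n ≤
      C * (∑' n : ℕ, (n : ℝ) ^ (θ - 2) + 1) := by
    have h7 : ∑ n ∈ Finset.Icc 1 N, (x n - y n) / (n : ℝ) =
        ∑ n ∈ Finset.Icc 1 N, (∑ k ∈ Finset.Icc 1 n, (x k - y k)) *
          (1 / (n : ℝ) - 1 / ((n : ℝ) + 1)) +
        (∑ k ∈ Finset.Icc 1 N, (x k - y k)) / ((N : ℝ) + 1) := h2
    rw [h7, mul_add]
    exact add_le_add h3 h4
  linarith

end Vale.Agent.P057.H567
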