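import Vale.Agent.P057.R3.H567.Aut
import Vale.Agent.P057.R3.H380.RingDefs

/-!
# Blocks modulo a two-sided ideal with finitely many values
-/

open Nat

namespace Vale.Agent.P057.H567

open Vale.Agent.P057.H380

section

variable {Q B : Type} [AddCommMonoid B]

/-- In a finite automaton the blocks of a word of minimal rank act in the same way, by an
idempotent map. -/
theorem aut_state [Finite Q] (δ : Q → ℕ → Q × B) (b : ℕ) :
    ∃ e : List ℕ, Dig b e ∧ ∀ u v : List ℕ, Dig b u → Dig b v → ∀ t : ℕ, 0 < t →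
      ∀ q : Q, act δ (pw e ((Nat.card Q)! * t) u) q = act δ (pw e ((Nat.card Q)! * t) v) q ∧
        act δ (pw e ((Nat.card Q)! * t) v) (act δ (pw e ((Nat.card Q)! * t) u) q) =
          act δ (pw e ((Nat.card Q)! * t) u) q := by
  classical
  have hex : ∃ n, ∃ w, Dig b w ∧ (Set.range (act δ w)).ncard = n :=
    ⟨_, [], by simp [Dig], rfl⟩
  obtain ⟨e, he, hen⟩ := Nat.find_spec hex
  have hmin : ∀ w, Dig b w → (Set.range (act δ e)).ncard ≤ (Set.range (act δ w)).ncard := by
    intro w hw
    rw [hen]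
    exact Nat.find_min' hex ⟨w, hw, rfl⟩
  refine ⟨e, he, ?_⟩
  intro u v hu hv t ht q
  set E : List ℕ := e with hE
  have hDE : Dig b E := he
  set R : Set Q := Set.range (act δ E) with hR
  have hRcard : R.ncard ≤ (Set.range (act δ e)).ncard := by
    exact le_refl _
  -- `act (w ++ E)` maps `R` onto `R`
  have hon : ∀ w, Dig b w → Set.SurjOn (act δ (w ++ E)) R R := by
    intro w hw x hx
    have h2 : Set.range (act δ (E ++ (w ++ E))) = R := by
      refine Set.eq_of_subset_of_ncard_le ?_ ?_ (Set.toFinite _)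
      · rintro _ ⟨z, rfl⟩
        rw [act_append, act_append]
        exact ⟨_, rfl⟩
      · exact hRcard.trans (hmin _ (Dig.append hDE (Dig.append hw hDE)))
    rw [← h2] at hx
    obtain ⟨z, rfl⟩ := hx
    exact ⟨act δ E z, ⟨z, rfl⟩, by rw [← act_append]⟩
  have hto : ∀ w, ∀ x, act δ (w ++ E) x ∈ R := by
    intro w x
    rw [act_append]
    exact ⟨_, rfl⟩
  have hinj : ∀ w, Dig b w → Set.InjOn (act δ (w ++ E)) R := by
    intro w hw
    let σ : R → R := fun x => ⟨act δ (w ++ E) x, hto w x⟩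
    have hsur : Function.Surjective σ := by
      intro y
      obtain ⟨z, hz, hzy⟩ := hon w hw y.2
      exact ⟨⟨z, hz⟩, Subtype.ext hzy⟩
    have hi : Function.Injective σ := Finite.injective_iff_surjective.2 hsur
    intro x hx y hy hxy
    have := @hi ⟨x, hx⟩ ⟨y, hy⟩ (Subtype.ext hxy)
    exact congrArg Subtype.val this
  have hnil : Dig b [] := by simp [Dig]
  have hE_R : ∀ x, act δ E x ∈ R := fun x => ⟨x, rfl⟩
  have hEinj : Set.InjOn (act δ E) R := by simpa using hinj [] hnil
  have hEsur : Set.SurjOn (act δ E) R R := by simpa using hon [] hnil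
  -- the exponent is a successor
  obtain ⟨N', hN'⟩ : ∃ N', (Nat.card Q)! * t = N' + 1 :=
    ⟨(Nat.card Q)! * t - 1, (Nat.succ_pred_eq_of_pos
      (Nat.mul_pos (Nat.factorial_pos _) ht)).symm⟩
  have hP : ∀ w, Dig b w → ∀ x, act δ (pw E ((Nat.card Q)! * t) w) x ∈ R ∧
      act δ E (act δ (pw E ((Nat.card Q)! * t) w) x) = act δ E x := by
    intro w hw x
    have hF : ∀ z, act δ (E ++ w ++ E) z = act δ (w ++ E) (act δ E z) := by
      intro z
      rw [List.append_assoc, act_append]
    have hfix : ∀ z ∈ R, (act δ (E ++ w ++ E))^[(Nat.card Q)! * t] z = z := by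
      intro z hz
      apply iterate_fix _ R _ _ t z hz
      · intro z _
        rw [hF]
        exact hto _ _
      · intro z hz
        obtain ⟨z₁, hz₁, rfl⟩ := hon w hw hz
        obtain ⟨z₂, hz₂, rfl⟩ := hEsur hz₁
        exact ⟨z₂, hz₂, hF z₂⟩
    rw [pw, act_pow]
    have hmem : (act δ (E ++ w ++ E))^[(Nat.card Q)! * t] x ∈ R := by
      rw [hN', Function.iterate_succ_apply', hF]
      exact hto _ _
    refine ⟨hmem, ?_⟩
    apply hinj w hw (hE_R _) (hE_R _)
    rw [← hF, ← hF, ← Function.iterate_succ_apply' (act δ (E ++ w ++ E)),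
      Function.iterate_succ_apply]
    apply hfix
    rw [hF]
    exact hto _ _
  -- two words act in the same way
  have hsame : ∀ w w', Dig b w → Dig b w' → ∀ x x', act δ E x = act δ E x' →
      act δ (pw E ((Nat.card Q)! * t) w) x = act δ (pw E ((Nat.card Q)! * t) w') x' := by
    intro w w' hw hw' x x' hxx
    apply hEinj (hP w hw x).1 (hP w' hw' x').1
    rw [(hP w hw x).2, (hP w' hw' x').2, hxx]
  refine ⟨hsame u v hu hv q q rfl, ?_⟩
  have h3 := hsame v u hv hu (act δ (pw E ((Nat.card Q)! * t) u) q) q (hP u hu q).2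
  exact h3

end

theorem fin_row {R : Type} [Ring R] (I : Ideal R) [I.IsTwoSided] {b : ℕ} (x : ℕ → R)
    (hfin : ∃ T : Set R, T.Finite ∧ ∀ w : List ℕ, Dig b w → ∃ t ∈ T, val x w - t ∈ I) :
    ∃ (e : List ℕ) (N : ℕ), Dig b e ∧ 1 ≤ N ∧ ∀ u : List ℕ, Dig b u →
      val x (pw e N u) - val x (pw e N []) ∈ I ∧
        val x (pw e N u) * val x (pw e N u) - val x (pw e N u) ∈ I := by
  classical
  obtain ⟨T, hT, hw⟩ := hfin
  set π : R →+* R ⧸ I := Ideal.Quotient.mk I with hπ
  have hmk : ∀ y z : R, π y = π z ↔ y - z ∈ I := fun y z =>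
    Ideal.Quotient.mk_eq_mk_iff_sub_mem y z
  set M : Set (R ⧸ I) := {m | ∃ w, Dig b w ∧ m = π (val x w)} with hM
  have hMfin : M.Finite := by
    refine (hT.image π).subset ?_
    rintro _ ⟨w, hd, rfl⟩
    obtain ⟨t, ht, h⟩ := hw w hd
    exact ⟨t, ht, ((hmk _ _).2 h).symm⟩
  have : Finite M := hMfin
  have hval : ∀ u v : List ℕ, val x (u ++ v) = val x u * val x v := fun u v => by
    simp [val]
  have hstep : ∀ (m : M) (d : ℕ), d < b → m.1 * π (x d) ∈ M := by
    rintro ⟨_, w, hd, rfl⟩ d hdb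
    refine ⟨w ++ [d], Dig.append hd (by intro c hc; simp at hc; rw [hc]; exact hdb), ?_⟩
    rw [hval, map_mul]
    simp [val]
  let δ : M → ℕ → M × ℕ := fun m d => (if h : d < b then ⟨m.1 * π (x d), hstep m d h⟩ else m, 0)
  have hact : ∀ w : List ℕ, Dig b w → ∀ m : M, (act δ w m).1 = m.1 * π (val x w) := by
    intro w
    induction w with
    | nil => intro _ m; simp [act_nil, val]
    | cons d w ih =>
      intro hd m
      have hdb : d < b := hd d (by simp)
      have hdw : Dig b w := fun c hc => hd c (by simp [hc])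
      have h1 : act δ (d :: w) m = act δ w (δ m d).1 := rfl
      rw [h1, ih hdw]
      have h2 : ((δ m d).1 : R ⧸ I) = m.1 * π (x d) := by
        simp [δ, hdb]
      rw [h2, mul_assoc, ← map_mul]
      simp [val]
  obtain ⟨e, he, hmain⟩ := aut_state δ b
  have hDpw : ∀ (n : ℕ) (u : List ℕ), Dig b u → Dig b (pw e n u) := by
    intro n u hu d hd
    rw [pw, List.mem_flatten] at hd
    obtain ⟨l, hl, hdl⟩ := hd
    rw [List.eq_of_mem_replicate hl] at hdl
    exact Dig.append (Dig.append he hu) he d hdl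
  have hnil : Dig b [] := by simp [Dig]
  let one : M := ⟨1, [], hnil, by simp [val]⟩
  refine ⟨e, (Nat.card M)! * 1, he, Nat.mul_pos (Nat.factorial_pos _) one_pos, ?_⟩
  intro u hu
  obtain ⟨h1, h2⟩ := hmain u [] hu hnil 1 one_pos one
  obtain ⟨-, h3⟩ := hmain u u hu hu 1 one_pos one
  constructor
  · rw [← hmk]
    have := congrArg Subtype.val h1
    rw [hact _ (hDpw _ _ hu), hact _ (hDpw _ _ hnil)] at this
    simpa [one] using this
  · rw [← hmk, map_mul]
    have := congrArg Subtype.val h3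
    rw [hact _ (hDpw _ _ hu), hact _ (hDpw _ _ hu)] at this
    simpa [one] using this

end Vale.Agent.P057.H567
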